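import Vale.Agent.Lib.P324.TH.Reduce

namespace Vale.Agent.Lib.P324.TH

variable {V : Type*} [DecidableEq V]

/-- a budgeted packing gives a three-machine schedule of length `N` with `2 N ≤ 2|P| + 3|Q|` -/
theorem three_core (lt : V → V → Prop)
    (hirr : ∀ v, ¬ lt v v) (htr : ∀ u v w, lt u v → lt v w → lt u w) :
    ∀ (c : ℕ) (S : Finset V) (σ : V → ℕ) (P Q : Finset ℕ), S.card = c → Valid lt S σ P Q →
      ∃ (N : ℕ) (τ : V → ℕ), (∀ v ∈ S, 1 ≤ τ v ∧ τ v ≤ N) ∧
        (∀ t, (S.filter (fun v => τ v = t)).card ≤ 3) ∧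
        (∀ u ∈ S, ∀ v ∈ S, lt u v → τ u < τ v) ∧ 2 * N ≤ 2 * P.card + 3 * Q.card := by
  intro c
  induction c using Nat.strong_induction_on with
  | _ c ih =>
    intro S σ P Q hc hval
    rcases S.eq_empty_or_nonempty with rfl | hne
    · exact ⟨0, fun _ => 0, by simp, by simp, by simp, by simp⟩
    obtain ⟨A, σ', P', Q', hAne, hA3, hAmin, hval', hbud⟩ := reduce lt hirr htr hval hne
    have hAS : A ⊆ S := fun a ha => (hAmin a ha).1
    have hcard' : (S \ A).card = S.card - A.card := Finset.card_sdiff_of_subset hAS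
    have hpos : 0 < A.card := Finset.card_pos.2 hAne
    have hle : A.card ≤ S.card := Finset.card_le_card hAS
    obtain ⟨N', τ', h1, h2, h3, h4⟩ := ih (S \ A).card (by omega) (S \ A) σ' P' Q' rfl hval'
    obtain ⟨τ, g1, g2, g3⟩ := gstep lt 3 S A N' hA3 (fun a ha => (hAmin a ha).2) τ' h1 h2 h3
    exact ⟨N' + 1, τ, g1, g2, g3, by omega⟩

end Vale.Agent.Lib.P324.TH

namespace Vale.Agent.Lib.P324

/-- a packing into `T` antichains of size at most three gives a three-machine schedule of some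
length `N` with `2 N ≤ 3 T`. -/
theorem three_halves {V : Type*} [Fintype V] [DecidableEq V] (E : V → V → Prop) (hE : Acyclic E)
    (T : ℕ) (σ : V → ℕ) (hσ : IsAntichainPacking 3 T E σ) :
    ∃ N τ, IsSchedule 3 N E τ ∧ 2 * N ≤ 3 * T := by
  obtain ⟨hrange, hcap, hanti⟩ := hσ
  obtain ⟨N, τ, h1, h2, h3, h4⟩ := TH.three_core (Relation.TransGen E) hE
    (fun _ _ _ h h' => Relation.TransGen.trans h h') _ Finset.univ σ ∅ (Finset.Icc 1 T) rfl
    ⟨by simp, fun v _ => by simpa using hrange v, by simp, fun t _ => hcap t,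
      fun u _ v _ huv => hanti u v huv⟩
  refine ⟨N, τ, ⟨fun v => h1 v (Finset.mem_univ v), h2,
    fun u v huv => h3 u (Finset.mem_univ u) v (Finset.mem_univ v) (Relation.TransGen.single huv)⟩, ?_⟩
  simpa using h4

end Vale.Agent.Lib.P324
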