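import Vale.Agent.Lib.P324.Graham

namespace Vale.Agent.Lib.P324.TH

variable {V : Type*} [DecidableEq V]

/-- A budgeted packing of `S`: every job of `S` has a label in `P ∪ Q`; a label of `P` is used at
most twice, a label of `Q` at most three times; comparable jobs have different labels. -/
structure Valid (lt : V → V → Prop) (S : Finset V) (σ : V → ℕ) (P Q : Finset ℕ) : Prop where
  disj : Disjoint P Q
  lab : ∀ v ∈ S, σ v ∈ P ∪ Q
  capP : ∀ t ∈ P, (S.filter (fun v => σ v = t)).card ≤ 2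
  capQ : ∀ t ∈ Q, (S.filter (fun v => σ v = t)).card ≤ 3
  anti : ∀ u ∈ S, ∀ v ∈ S, lt u v → σ u ≠ σ v

/-- `a` is a minimal job of `S` -/
def IsMin (lt : V → V → Prop) (S : Finset V) (a : V) : Prop := a ∈ S ∧ ∀ u ∈ S, ¬ lt u a

/-- One can remove a nonempty set `A` of at most three minimal jobs so that the rest has a budgeted
packing whose budget `2|P| + 3|Q|` is smaller by at least two. -/
def Reducible (lt : V → V → Prop) (S : Finset V) (P Q : Finset ℕ) : Prop :=
  ∃ (A : Finset V) (σ' : V → ℕ) (P' Q' : Finset ℕ), A.Nonempty ∧ A.card ≤ 3 ∧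
    (∀ a ∈ A, IsMin lt S a) ∧ Valid lt (S \ A) σ' P' Q' ∧
    2 * P'.card + 3 * Q'.card + 2 ≤ 2 * P.card + 3 * Q.card

end Vale.Agent.Lib.P324.TH
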