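import Vale.Agent.Lib.P324.TH.Defs

namespace Vale.Agent.Lib.P324.TH

variable {V : Type*} [DecidableEq V]

/-- Case A: a class all of whose jobs are minimal.
Proof: `A := S.filter (σ v = σ x)` (card ≤ 3 by capP/capQ, contains x), `σ' := σ`,
`P' := P.erase (σ x)`, `Q' := Q.erase (σ x)`.  If `σ x ∈ P` then `σ x ∉ Q` (disj), so `Q' = Q` and
`|P'| = |P| - 1`; symmetric otherwise. -/
theorem reduce_A {lt : V → V → Prop} {S : Finset V} {σ : V → ℕ} {P Q : Finset ℕ}
    (h : Valid lt S σ P Q) (x : V) (hx : x ∈ S)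
    (hall : ∀ v ∈ S, σ v = σ x → IsMin lt S v) : Reducible lt S P Q := by
  classical
  have hlabx := h.lab x hx
  have hsub : ∀ t, ((S \ S.filter (fun v => σ v = σ x)).filter (fun v => σ v = t)).card ≤
      (S.filter (fun v => σ v = t)).card := by
    intro t
    apply Finset.card_le_card
    intro v hv
    rw [Finset.mem_filter, Finset.mem_sdiff] at hv
    rw [Finset.mem_filter]
    exact ⟨hv.1.1, hv.2⟩
  refine ⟨S.filter (fun v => σ v = σ x), σ, P.erase (σ x), Q.erase (σ x), ?_, ?_, ?_, ?_, ?_⟩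
  · exact ⟨x, Finset.mem_filter.2 ⟨hx, rfl⟩⟩
  · rcases Finset.mem_union.1 hlabx with hP | hQ
    · exact le_trans (h.capP _ hP) (by norm_num)
    · exact h.capQ _ hQ
  · intro a ha
    rw [Finset.mem_filter] at ha
    exact hall a ha.1 ha.2
  · refine ⟨?_, ?_, ?_, ?_, ?_⟩
    · exact Finset.disjoint_of_subset_left (Finset.erase_subset _ _)
        (Finset.disjoint_of_subset_right (Finset.erase_subset _ _) h.disj)
    · intro v hv
      rw [Finset.mem_sdiff, Finset.mem_filter] at hv
      have hne : σ v ≠ σ x := fun he => hv.2 ⟨hv.1, he⟩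
      rcases Finset.mem_union.1 (h.lab v hv.1) with hP | hQ
      · exact Finset.mem_union_left _ (Finset.mem_erase.2 ⟨hne, hP⟩)
      · exact Finset.mem_union_right _ (Finset.mem_erase.2 ⟨hne, hQ⟩)
    · intro t ht
      exact le_trans (hsub t) (h.capP t (Finset.mem_of_mem_erase ht))
    · intro t ht
      exact le_trans (hsub t) (h.capQ t (Finset.mem_of_mem_erase ht))
    · intro u hu v hv huv
      exact h.anti u (Finset.mem_sdiff.1 hu).1 v (Finset.mem_sdiff.1 hv).1 huv
  · rcases Finset.mem_union.1 hlabx with hP | hQ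
    · have h1 := Finset.card_erase_of_mem hP
      have h2 : 0 < P.card := Finset.card_pos.2 ⟨_, hP⟩
      have h3 : (Q.erase (σ x)).card ≤ Q.card := Finset.card_le_card (Finset.erase_subset _ _)
      omega
    · have h1 := Finset.card_erase_of_mem hQ
      have h2 : 0 < Q.card := Finset.card_pos.2 ⟨_, hQ⟩
      have h3 : (P.erase (σ x)).card ≤ P.card := Finset.card_le_card (Finset.erase_subset _ _)
      omega

end Vale.Agent.Lib.P324.TH
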