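import Vale.Agent.Lib.P324.TH.Defs

namespace Vale.Agent.Lib.P324.TH

variable {V : Type*} [DecidableEq V]

/-- Case B: two different `Q`-classes contain minimal jobs `x₁`, `x₂`.
Proof: `A := {x₁, x₂}`, `σ' := σ`, `P' := insert (σ x₁) (insert (σ x₂) P)`,
`Q' := (Q.erase (σ x₁)).erase (σ x₂)`.  In `S \ A` the two classes have lost one job each, so they
have at most two jobs.  Budget: `2(|P|+2) + 3(|Q|-2) + 2 = 2|P| + 3|Q|`. -/
theorem reduce_B {lt : V → V → Prop} {S : Finset V} {σ : V → ℕ} {P Q : Finset ℕ}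
    (h : Valid lt S σ P Q) (x₁ x₂ : V) (h₁ : IsMin lt S x₁) (h₂ : IsMin lt S x₂)
    (hq₁ : σ x₁ ∈ Q) (hq₂ : σ x₂ ∈ Q) (hne : σ x₁ ≠ σ x₂) : Reducible lt S P Q := by
  classical
  have hsub : ∀ t, (S \ {x₁, x₂}).filter (fun v => σ v = t) ⊆ S.filter (fun v => σ v = t) := by
    intro t
    exact Finset.filter_subset_filter _ Finset.sdiff_subset
  have hdrop : ∀ x ∈ S, (x = x₁ ∨ x = x₂) → σ x ∈ Q →
      ((S \ {x₁, x₂}).filter (fun v => σ v = σ x)).card ≤ 2 := by
    intro x hxS hx hq
    have h3 := h.capQ _ hq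
    have hmem : x ∈ S.filter (fun v => σ v = σ x) := Finset.mem_filter.mpr ⟨hxS, rfl⟩
    have hs : (S \ {x₁, x₂}).filter (fun v => σ v = σ x) ⊆
        (S.filter (fun v => σ v = σ x)).erase x := by
      intro v hv
      obtain ⟨hv1, hv2⟩ := Finset.mem_filter.mp hv
      obtain ⟨hvS, hvA⟩ := Finset.mem_sdiff.mp hv1
      refine Finset.mem_erase.mpr ⟨?_, Finset.mem_filter.mpr ⟨hvS, hv2⟩⟩
      intro hvx
      apply hvA
      rw [hvx]
      rcases hx with rfl | rfl <;> simp
    have hc := Finset.card_le_card hs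
    rw [Finset.card_erase_of_mem hmem] at hc
    omega
  refine ⟨{x₁, x₂}, σ, insert (σ x₁) (insert (σ x₂) P), (Q.erase (σ x₁)).erase (σ x₂),
    ⟨x₁, by simp⟩, ?_, ?_, ?_, ?_⟩
  · exact le_trans (Finset.card_le_two) (by norm_num)
  · intro a ha
    rcases Finset.mem_insert.mp ha with rfl | ha
    · exact h₁
    · rw [Finset.mem_singleton] at ha
      rw [ha]
      exact h₂
  · refine ⟨?_, ?_, ?_, ?_, ?_⟩
    · rw [Finset.disjoint_left]
      intro t ht hQ
      obtain ⟨hQ2, hQ'⟩ := Finset.mem_erase.mp hQ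
      obtain ⟨hQ1, hQQ⟩ := Finset.mem_erase.mp hQ'
      rcases Finset.mem_insert.mp ht with rfl | ht
      · exact hQ1 rfl
      · rcases Finset.mem_insert.mp ht with rfl | ht
        · exact hQ2 rfl
        · exact Finset.disjoint_left.mp h.disj ht hQQ
    · intro v hv
      have hvS := (Finset.mem_sdiff.mp hv).1
      rcases Finset.mem_union.mp (h.lab v hvS) with hP | hQ
      · exact Finset.mem_union_left _
          (Finset.mem_insert_of_mem (Finset.mem_insert_of_mem hP))
      · by_cases e1 : σ v = σ x₁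
        · exact Finset.mem_union_left _ (by rw [e1]; exact Finset.mem_insert_self _ _)
        · by_cases e2 : σ v = σ x₂
          · exact Finset.mem_union_left _
              (by rw [e2]; exact Finset.mem_insert_of_mem (Finset.mem_insert_self _ _))
          · exact Finset.mem_union_right _
              (Finset.mem_erase.mpr ⟨e2, Finset.mem_erase.mpr ⟨e1, hQ⟩⟩)
    · intro t ht
      rcases Finset.mem_insert.mp ht with rfl | ht
      · exact hdrop x₁ h₁.1 (Or.inl rfl) hq₁
      · rcases Finset.mem_insert.mp ht with rfl | ht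
        · exact hdrop x₂ h₂.1 (Or.inr rfl) hq₂
        · exact le_trans (Finset.card_le_card (hsub t)) (h.capP t ht)
    · intro t ht
      have hQQ := (Finset.mem_erase.mp (Finset.mem_erase.mp ht).2).2
      exact le_trans (Finset.card_le_card (hsub t)) (h.capQ t hQQ)
    · intro u hu v hv
      exact h.anti u (Finset.mem_sdiff.mp hu).1 v (Finset.mem_sdiff.mp hv).1
  · have hP1 : (insert (σ x₁) (insert (σ x₂) P)).card ≤ P.card + 2 := by
      have a1 := Finset.card_insert_le (σ x₁) (insert (σ x₂) P)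
      have a2 := Finset.card_insert_le (σ x₂) P
      omega
    have hm2 : σ x₂ ∈ Q.erase (σ x₁) := Finset.mem_erase.mpr ⟨fun e => hne e.symm, hq₂⟩
    have hQ1 : ((Q.erase (σ x₁)).erase (σ x₂)).card = Q.card - 1 - 1 := by
      rw [Finset.card_erase_of_mem hm2, Finset.card_erase_of_mem hq₁]
    have hQ2 : 2 ≤ Q.card := by
      have hs : ({σ x₁, σ x₂} : Finset ℕ) ⊆ Q := by
        intro t ht
        rcases Finset.mem_insert.mp ht with rfl | ht
        · exact hq₁
        · rw [Finset.mem_singleton] at ht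
          rw [ht]
          exact hq₂
      have hc := Finset.card_le_card hs
      rw [Finset.card_pair hne] at hc
      exact hc
    omega

end Vale.Agent.Lib.P324.TH
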