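import Vale.Agent.Lib.P324.TH.Defs

namespace Vale.Agent.Lib.P324.TH

variable {V : Type*} [DecidableEq V]

private theorem cls_two {S : Finset V} {σ : V → ℕ} {t : ℕ}
    (hcap : (S.filter (fun v => σ v = t)).card ≤ 2) {x y : V} (hx : x ∈ S) (hy : y ∈ S)
    (hxy : x ≠ y) (hσx : σ x = t) (hσy : σ y = t) :
    ∀ v ∈ S, σ v = t → v = x ∨ v = y := by
  have hsub : ({x, y} : Finset V) ⊆ S.filter (fun v => σ v = t) := by
    intro z hz
    rw [Finset.mem_insert, Finset.mem_singleton] at hz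
    rcases hz with rfl | rfl
    · exact Finset.mem_filter.2 ⟨hx, hσx⟩
    · exact Finset.mem_filter.2 ⟨hy, hσy⟩
  have hcard : ({x, y} : Finset V).card = 2 := Finset.card_pair hxy
  have heq := Finset.eq_of_subset_of_card_le hsub (by rw [hcard]; exact hcap)
  intro v hv hσv
  have hmem : v ∈ ({x, y} : Finset V) := by
    rw [heq]
    exact Finset.mem_filter.2 ⟨hv, hσv⟩
  rw [Finset.mem_insert, Finset.mem_singleton] at hmem
  exact hmem

private theorem cls_three {S : Finset V} {σ : V → ℕ} {t : ℕ}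
    (hcap : (S.filter (fun v => σ v = t)).card ≤ 3) {x y z : V} (hx : x ∈ S) (hy : y ∈ S)
    (hz : z ∈ S) (hxy : x ≠ y) (hxz : x ≠ z) (hyz : y ≠ z)
    (hσx : σ x = t) (hσy : σ y = t) (hσz : σ z = t) :
    ∀ v ∈ S, σ v = t → v = x ∨ v = y ∨ v = z := by
  have hsub : ({x, y, z} : Finset V) ⊆ S.filter (fun v => σ v = t) := by
    intro w hw
    rw [Finset.mem_insert, Finset.mem_insert, Finset.mem_singleton] at hw
    rcases hw with rfl | rfl | rfl
    · exact Finset.mem_filter.2 ⟨hx, hσx⟩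
    · exact Finset.mem_filter.2 ⟨hy, hσy⟩
    · exact Finset.mem_filter.2 ⟨hz, hσz⟩
  have hcard : ({x, y, z} : Finset V).card = 3 :=
    Finset.card_eq_three.2 ⟨x, y, z, hxy, hxz, hyz, rfl⟩
  have heq := Finset.eq_of_subset_of_card_le hsub (by rw [hcard]; exact hcap)
  intro v hv hσv
  have hmem : v ∈ ({x, y, z} : Finset V) := by
    rw [heq]
    exact Finset.mem_filter.2 ⟨hv, hσv⟩
  rw [Finset.mem_insert, Finset.mem_insert, Finset.mem_singleton] at hmem
  exact hmem

/-- Case T: a `Q`-class `{a, b, c}` with `a` minimal and two `P`-classes `{α₁, β₁}`, `{α₂, β₂}` with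
`α₁`, `α₂` minimal, `b` incomparable to `β₁` and `c` incomparable to `β₂`.
Proof: `A := {a, α₁, α₂}`, `σ' := Function.update (Function.update σ b (σ α₁)) c (σ α₂)`, `P' := P`,
`Q' := Q.erase (σ a)`.  The class of `σ a` is exactly `{a,b,c}` (capQ), the class of `σ αᵢ` is exactly
`{αᵢ, βᵢ}` (capP); in `S \ A` the new classes are `{b, β₁}` and `{c, β₂}`. -/
theorem reduce_T {lt : V → V → Prop} {S : Finset V} {σ : V → ℕ} {P Q : Finset ℕ}
    (h : Valid lt S σ P Q) (a b c α₁ β₁ α₂ β₂ : V)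
    (ha : IsMin lt S a) (hb : b ∈ S) (hc : c ∈ S) (hab : a ≠ b) (hac : a ≠ c) (hbc : b ≠ c)
    (hσb : σ b = σ a) (hσc : σ c = σ a) (hQ : σ a ∈ Q)
    (hα₁ : IsMin lt S α₁) (hβ₁ : β₁ ∈ S) (hne₁ : α₁ ≠ β₁) (hσ₁ : σ β₁ = σ α₁) (hP₁ : σ α₁ ∈ P)
    (hα₂ : IsMin lt S α₂) (hβ₂ : β₂ ∈ S) (hne₂ : α₂ ≠ β₂) (hσ₂ : σ β₂ = σ α₂) (hP₂ : σ α₂ ∈ P)
    (hq : σ α₁ ≠ σ α₂)
    (hinc₁ : ¬ lt b β₁ ∧ ¬ lt β₁ b) (hinc₂ : ¬ lt c β₂ ∧ ¬ lt β₂ c) :
    Reducible lt S P Q := by
  classical
  have hPQ : ∀ t, t ∈ P → t ∈ Q → False := fun t h1 h2 => Finset.disjoint_left.1 h.disj h1 h2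
  have hclsQ := cls_three (h.capQ _ hQ) ha.1 hb hc hab hac hbc rfl hσb hσc
  have hcls1 := cls_two (h.capP _ hP₁) hα₁.1 hβ₁ hne₁ rfl hσ₁
  have hcls2 := cls_two (h.capP _ hP₂) hα₂.1 hβ₂ hne₂ rfl hσ₂
  set σ' : V → ℕ := Function.update (Function.update σ b (σ α₁)) c (σ α₂) with hσ'
  have hσ'c : σ' c = σ α₂ := Function.update_self _ _ _
  have hσ'b : σ' b = σ α₁ := by
    rw [hσ', Function.update_of_ne hbc, Function.update_self]
  have hσ'o : ∀ v, v ≠ b → v ≠ c → σ' v = σ v := by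
    intro v h1 h2
    rw [hσ', Function.update_of_ne h2, Function.update_of_ne h1]
  have hmemA : ∀ v, v ∈ S \ ({a, α₁, α₂} : Finset V) ↔ v ∈ S ∧ v ≠ a ∧ v ≠ α₁ ∧ v ≠ α₂ := by
    intro v
    simp only [Finset.mem_sdiff, Finset.mem_insert, Finset.mem_singleton, not_or]
  -- the new classes
  have hnew1 : ∀ v ∈ S \ ({a, α₁, α₂} : Finset V), σ' v = σ α₁ → v = b ∨ v = β₁ := by
    intro v hv hv1
    obtain ⟨hvS, -, hv2, -⟩ := (hmemA v).1 hv
    by_cases hvc : v = c
    · subst hvc
      rw [hσ'c] at hv1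
      exact absurd hv1.symm hq
    by_cases hvb : v = b
    · exact Or.inl hvb
    rw [hσ'o v hvb hvc] at hv1
    rcases hcls1 v hvS hv1 with h1 | h1
    · exact absurd h1 hv2
    · exact Or.inr h1
  have hnew2 : ∀ v ∈ S \ ({a, α₁, α₂} : Finset V), σ' v = σ α₂ → v = c ∨ v = β₂ := by
    intro v hv hv1
    obtain ⟨hvS, -, -, hv2⟩ := (hmemA v).1 hv
    by_cases hvc : v = c
    · exact Or.inl hvc
    by_cases hvb : v = b
    · subst hvb
      rw [hσ'b] at hv1
      exact absurd hv1 hq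
    rw [hσ'o v hvb hvc] at hv1
    rcases hcls2 v hvS hv1 with h1 | h1
    · exact absurd h1 hv2
    · exact Or.inr h1
  have hold : ∀ t, t ≠ σ α₁ → t ≠ σ α₂ →
      (S \ ({a, α₁, α₂} : Finset V)).filter (fun v => σ' v = t) ⊆ S.filter (fun v => σ v = t) := by
    intro t ht1 ht2 v hv
    obtain ⟨hv1, hv2⟩ := Finset.mem_filter.1 hv
    obtain ⟨hvS, -⟩ := (hmemA v).1 hv1
    by_cases hvc : v = c
    · subst hvc
      rw [hσ'c] at hv2
      exact absurd hv2.symm ht2
    by_cases hvb : v = b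
    · subst hvb
      rw [hσ'b] at hv2
      exact absurd hv2.symm ht1
    rw [hσ'o v hvb hvc] at hv2
    exact Finset.mem_filter.2 ⟨hvS, hv2⟩
  refine ⟨{a, α₁, α₂}, σ', P, Q.erase (σ a), ⟨a, Finset.mem_insert_self _ _⟩,
    Finset.card_le_three, ?_, ?_, ?_⟩
  · intro x hx
    rw [Finset.mem_insert, Finset.mem_insert, Finset.mem_singleton] at hx
    rcases hx with rfl | rfl | rfl
    · exact ha
    · exact hα₁
    · exact hα₂
  · refine ⟨h.disj.mono_right (Finset.erase_subset _ _), ?_, ?_, ?_, ?_⟩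
    · intro v hv
      obtain ⟨hvS, hva, -, -⟩ := (hmemA v).1 hv
      by_cases hvc : v = c
      · subst hvc
        rw [hσ'c]
        exact Finset.mem_union_left _ hP₂
      by_cases hvb : v = b
      · subst hvb
        rw [hσ'b]
        exact Finset.mem_union_left _ hP₁
      rw [hσ'o v hvb hvc]
      rcases Finset.mem_union.1 (h.lab v hvS) with h1 | h1
      · exact Finset.mem_union_left _ h1
      · refine Finset.mem_union_right _ (Finset.mem_erase.2 ⟨?_, h1⟩)
        intro h2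
        rcases hclsQ v hvS h2 with h3 | h3 | h3
        · exact hva h3
        · exact hvb h3
        · exact hvc h3
    · intro t ht
      by_cases ht1 : t = σ α₁
      · subst ht1
        refine le_trans (Finset.card_le_card (t := {b, β₁}) ?_) Finset.card_le_two
        intro v hv
        obtain ⟨hv1, hv2⟩ := Finset.mem_filter.1 hv
        rw [Finset.mem_insert, Finset.mem_singleton]
        exact hnew1 v hv1 hv2
      by_cases ht2 : t = σ α₂
      · subst ht2
        refine le_trans (Finset.card_le_card (t := {c, β₂}) ?_) Finset.card_le_two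
        intro v hv
        obtain ⟨hv1, hv2⟩ := Finset.mem_filter.1 hv
        rw [Finset.mem_insert, Finset.mem_singleton]
        exact hnew2 v hv1 hv2
      exact le_trans (Finset.card_le_card (hold t ht1 ht2)) (h.capP t ht)
    · intro t ht
      have htQ : t ∈ Q := Finset.mem_of_mem_erase ht
      have ht1 : t ≠ σ α₁ := fun h1 => hPQ t (h1 ▸ hP₁) htQ
      have ht2 : t ≠ σ α₂ := fun h1 => hPQ t (h1 ▸ hP₂) htQ
      exact le_trans (Finset.card_le_card (hold t ht1 ht2)) (h.capQ t htQ)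
    · intro u hu v hv huv heq
      obtain ⟨huS, -, hu1, hu2⟩ := (hmemA u).1 hu
      obtain ⟨hvS, -, hv1, hv2⟩ := (hmemA v).1 hv
      by_cases hub : u = b
      · subst hub
        rw [hσ'b] at heq
        rcases hnew1 v hv heq.symm with h1 | h1
        · subst h1
          exact h.anti _ huS _ huS huv rfl
        · subst h1
          exact hinc₁.1 huv
      by_cases huc : u = c
      · subst huc
        rw [hσ'c] at heq
        rcases hnew2 v hv heq.symm with h1 | h1
        · subst h1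
          exact h.anti _ huS _ huS huv rfl
        · subst h1
          exact hinc₂.1 huv
      by_cases hvb : v = b
      · subst hvb
        rw [hσ'b] at heq
        rcases hnew1 u hu heq with h1 | h1
        · exact hub h1
        · subst h1
          exact hinc₁.2 huv
      by_cases hvc : v = c
      · subst hvc
        rw [hσ'c] at heq
        rcases hnew2 u hu heq with h1 | h1
        · exact huc h1
        · subst h1
          exact hinc₂.2 huv
      rw [hσ'o u hub huc, hσ'o v hvb hvc] at heq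
      exact h.anti u huS v hvS huv heq
  · have h1 : (Q.erase (σ a)).card = Q.card - 1 := Finset.card_erase_of_mem hQ
    have h2 : 1 ≤ Q.card := Finset.card_pos.2 ⟨_, hQ⟩
    omega

end Vale.Agent.Lib.P324.TH
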