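import Vale.Agent.Lib.P324.TH.Defs

namespace Vale.Agent.Lib.P324.TH

variable {V : Type*} [DecidableEq V]

/-- Case U: `β` is the only non-minimal job of its class; `α` is a minimal job of another class,
which has a non-minimal job, and `β` is incomparable to all non-minimal jobs of the class of `α`;
the two labels are not both in `Q`.
Proof (classical): `A := S.filter (fun v => (σ v = σ β ∨ σ v = σ α) ∧ IsMin lt S v)`; `α ∈ A`;
`A ⊆ (C_β.erase β) ∪ (C_α.erase w)`, so `|A| ≤ (bud β - 1) + (bud α - 1) ≤ 3`.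
`σ' := Function.update σ β (σ α)`, `P' := P.erase (σ β)`, `Q' := Q.erase (σ β)`.
In `S \ A`: nobody has the label `σ β`; the class of `σ α` is inside `insert β (C_α.erase α)`; the
other classes did not grow.  `lt` is irreflexive on `S` by `h.anti`. -/
theorem reduce_U {lt : V → V → Prop} {S : Finset V} {σ : V → ℕ} {P Q : Finset ℕ}
    (h : Valid lt S σ P Q) (β α : V) (hβS : β ∈ S) (hβ : ¬ IsMin lt S β) (hα : IsMin lt S α)
    (hpq : σ β ≠ σ α) (hQQ : ¬ (σ β ∈ Q ∧ σ α ∈ Q))
    (hCβ : ∀ v ∈ S, σ v = σ β → v ≠ β → IsMin lt S v)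
    (hCα : ∃ w ∈ S, σ w = σ α ∧ ¬ IsMin lt S w)
    (hinc : ∀ w ∈ S, σ w = σ α → ¬ IsMin lt S w → ¬ lt β w ∧ ¬ lt w β) :
    Reducible lt S P Q := by
  classical
  obtain ⟨w, hwS, hwα, hwmin⟩ := hCα
  set A : Finset V := S.filter (fun v => (σ v = σ β ∨ σ v = σ α) ∧ IsMin lt S v) with hA
  have memA : ∀ v, v ∈ A ↔ v ∈ S ∧ ((σ v = σ β ∨ σ v = σ α) ∧ IsMin lt S v) := by
    intro v
    rw [hA, Finset.mem_filter]
  have hαA : α ∈ A := (memA α).2 ⟨hα.1, Or.inr rfl, hα⟩
  have hβA : β ∉ A := fun hh => hβ ((memA β).1 hh).2.2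
  have hwA : w ∉ A := fun hh => hwmin ((memA w).1 hh).2.2
  set σ' : V → ℕ := Function.update σ β (σ α) with hσ'
  have hσβ : σ' β = σ α := by
    rw [hσ']
    exact Function.update_self _ _ _
  have hσne : ∀ v, v ≠ β → σ' v = σ v := fun v hv => by
    rw [hσ']
    exact Function.update_of_ne hv _ _
  have hbmem : σ β ∈ P ∪ Q := h.lab β hβS
  have hamem : σ α ∈ P ∪ Q := h.lab α hα.1
  have hcard : A.card ≤ 3 := by
    have hsub : A ⊆ ((S.filter (fun v => σ v = σ β)).erase β) ∪
        ((S.filter (fun v => σ v = σ α)).erase w) := by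
      intro v hv
      have hv' := (memA v).1 hv
      rcases hv'.2.1 with h1 | h1
      · refine Finset.mem_union_left _
          (Finset.mem_erase.2 ⟨?_, Finset.mem_filter.2 ⟨hv'.1, h1⟩⟩)
        intro e
        exact hβA (e ▸ hv)
      · refine Finset.mem_union_right _
          (Finset.mem_erase.2 ⟨?_, Finset.mem_filter.2 ⟨hv'.1, h1⟩⟩)
        intro e
        exact hwA (e ▸ hv)
    have h1 : ((S.filter (fun v => σ v = σ β)).erase β).card
        = (S.filter (fun v => σ v = σ β)).card - 1 :=
      Finset.card_erase_of_mem (Finset.mem_filter.2 ⟨hβS, rfl⟩)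
    have h2 : ((S.filter (fun v => σ v = σ α)).erase w).card
        = (S.filter (fun v => σ v = σ α)).card - 1 :=
      Finset.card_erase_of_mem (Finset.mem_filter.2 ⟨hwS, hwα⟩)
    have h3 := Finset.card_le_card hsub
    have h4 := Finset.card_union_le ((S.filter (fun v => σ v = σ β)).erase β)
      ((S.filter (fun v => σ v = σ α)).erase w)
    have hb : (S.filter (fun v => σ v = σ β)).card ≤ 2 ∨
        (σ β ∈ Q ∧ (S.filter (fun v => σ v = σ β)).card ≤ 3) := by
      rcases Finset.mem_union.1 hbmem with hh | hh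
      · exact Or.inl (h.capP _ hh)
      · exact Or.inr ⟨hh, h.capQ _ hh⟩
    have ha : (S.filter (fun v => σ v = σ α)).card ≤ 2 ∨
        (σ α ∈ Q ∧ (S.filter (fun v => σ v = σ α)).card ≤ 3) := by
      rcases Finset.mem_union.1 hamem with hh | hh
      · exact Or.inl (h.capP _ hh)
      · exact Or.inr ⟨hh, h.capQ _ hh⟩
    rcases hb with hb | ⟨hbQ, hb⟩ <;> rcases ha with ha | ⟨haQ, ha⟩
    · omega
    · omega
    · omega
    · exact absurd ⟨hbQ, haQ⟩ hQQ
  have hclass : ∀ t, t ≠ σ β →
      ((S \ A).filter (fun v => σ' v = t)).card ≤ (S.filter (fun v => σ v = t)).card := by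
    intro t ht
    by_cases hta : t = σ α
    · rw [hta]
      have hsub : (S \ A).filter (fun v => σ' v = σ α) ⊆
          insert β ((S.filter (fun v => σ v = σ α)).erase α) := by
        intro v hv
        obtain ⟨hvSA, hvσ⟩ := Finset.mem_filter.1 hv
        obtain ⟨hvS, hvA⟩ := Finset.mem_sdiff.1 hvSA
        by_cases hvβ : v = β
        · rw [hvβ]
          exact Finset.mem_insert_self _ _
        · refine Finset.mem_insert_of_mem
            (Finset.mem_erase.2 ⟨?_, Finset.mem_filter.2 ⟨hvS, ?_⟩⟩)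
          · intro e
            exact hvA (e ▸ hαA)
          · rw [← hσne v hvβ]
            exact hvσ
      have h1 := Finset.card_le_card hsub
      have h2 := Finset.card_insert_le β ((S.filter (fun v => σ v = σ α)).erase α)
      have h3 : ((S.filter (fun v => σ v = σ α)).erase α).card
          = (S.filter (fun v => σ v = σ α)).card - 1 :=
        Finset.card_erase_of_mem (Finset.mem_filter.2 ⟨hα.1, rfl⟩)
      have h4 : 0 < (S.filter (fun v => σ v = σ α)).card :=
        Finset.card_pos.2 ⟨α, Finset.mem_filter.2 ⟨hα.1, rfl⟩⟩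
      omega
    · apply Finset.card_le_card
      intro v hv
      obtain ⟨hvSA, hvσ⟩ := Finset.mem_filter.1 hv
      obtain ⟨hvS, hvA⟩ := Finset.mem_sdiff.1 hvSA
      have hvβ : v ≠ β := by
        intro e
        rw [e, hσβ] at hvσ
        exact hta hvσ.symm
      refine Finset.mem_filter.2 ⟨hvS, ?_⟩
      rw [← hσne v hvβ]
      exact hvσ
  have hvalid : Valid lt (S \ A) σ' (P.erase (σ β)) (Q.erase (σ β)) := by
    refine ⟨?_, ?_, ?_, ?_, ?_⟩
    · exact Finset.disjoint_of_subset_left (Finset.erase_subset _ _)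
        (Finset.disjoint_of_subset_right (Finset.erase_subset _ _) h.disj)
    · intro v hv
      obtain ⟨hvS, hvA⟩ := Finset.mem_sdiff.1 hv
      have key : ∀ t, t ∈ P ∪ Q → t ≠ σ β → t ∈ P.erase (σ β) ∪ Q.erase (σ β) := by
        intro t ht hne
        rcases Finset.mem_union.1 ht with hh | hh
        · exact Finset.mem_union_left _ (Finset.mem_erase.2 ⟨hne, hh⟩)
        · exact Finset.mem_union_right _ (Finset.mem_erase.2 ⟨hne, hh⟩)
      by_cases hvβ : v = β
      · rw [hvβ, hσβ]
        exact key _ hamem (Ne.symm hpq)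
      · rw [hσne v hvβ]
        refine key _ (h.lab v hvS) ?_
        intro e
        exact hvA ((memA v).2 ⟨hvS, Or.inl e, hCβ v hvS e hvβ⟩)
    · intro t ht
      obtain ⟨hne, htP⟩ := Finset.mem_erase.1 ht
      exact le_trans (hclass t hne) (h.capP t htP)
    · intro t ht
      obtain ⟨hne, htQ⟩ := Finset.mem_erase.1 ht
      exact le_trans (hclass t hne) (h.capQ t htQ)
    · intro u hu v hv huv
      obtain ⟨huS, huA⟩ := Finset.mem_sdiff.1 hu
      obtain ⟨hvS, hvA⟩ := Finset.mem_sdiff.1 hv
      by_cases huβ : u = β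
      · by_cases hvβ : v = β
        · exfalso
          rw [huβ, hvβ] at huv
          exact h.anti β hβS β hβS huv rfl
        · rw [huβ, hσβ, hσne v hvβ]
          intro e
          have hvmin : ¬ IsMin lt S v := fun hm => hvA ((memA v).2 ⟨hvS, Or.inr e.symm, hm⟩)
          rw [huβ] at huv
          exact (hinc v hvS e.symm hvmin).1 huv
      · by_cases hvβ : v = β
        · rw [hvβ, hσβ, hσne u huβ]
          intro e
          have humin : ¬ IsMin lt S u := fun hm => huA ((memA u).2 ⟨huS, Or.inr e, hm⟩)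
          rw [hvβ] at huv
          exact (hinc u huS e humin).2 huv
        · rw [hσne u huβ, hσne v hvβ]
          exact h.anti u huS v hvS huv
  have hbud : 2 * (P.erase (σ β)).card + 3 * (Q.erase (σ β)).card + 2
      ≤ 2 * P.card + 3 * Q.card := by
    rcases Finset.mem_union.1 hbmem with hh | hh
    · have h1 := Finset.card_erase_of_mem hh
      have h2 := Finset.card_erase_le (s := Q) (a := σ β)
      have h3 : 0 < P.card := Finset.card_pos.2 ⟨_, hh⟩
      omega
    · have h1 := Finset.card_erase_of_mem hh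
      have h2 := Finset.card_erase_le (s := P) (a := σ β)
      have h3 : 0 < Q.card := Finset.card_pos.2 ⟨_, hh⟩
      omega
  exact ⟨A, σ', P.erase (σ β), Q.erase (σ β), ⟨α, hαA⟩, hcard,
    fun a ha => ((memA a).1 ha).2.2, hvalid, hbud⟩

end Vale.Agent.Lib.P324.TH
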