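import Vale.Agent.Lib.P324.TH.RedA
import Vale.Agent.Lib.P324.TH.RedB
import Vale.Agent.Lib.P324.TH.RedU
import Vale.Agent.Lib.P324.TH.RedT

namespace Vale.Agent.Lib.P324.TH

variable {V : Type*} [DecidableEq V]

/-- Every nonempty budgeted packing is reducible.  Proof (classical).
0. Tools: `exists_min` (TwoMachines.lean).  (m1) `S` has a minimal job.  (m2) every `v ∈ S` that is not
   `IsMin` has an `IsMin` job `α` with `lt α v` (take a minimal element of `{u ∈ S | lt u v}`, use htr).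
1. If some `x ∈ S` has `∀ v ∈ S, σ v = σ x → IsMin v`: `reduce_A`.  From now on (nA): every class has a
   non-minimal job.
2. If there are `IsMin x₁ x₂` with `σ x₁, σ x₂ ∈ Q`, `σ x₁ ≠ σ x₂`: `reduce_B`.  From now on (nB).
3. `InB v := v ∈ S ∧ ¬ IsMin v ∧ ∃ a, IsMin a ∧ σ a = σ v`.  By (m1), (nA) some job is `InB`.
   `MinB β := InB β ∧ ∀ u, InB u → ¬ lt u β`.  (m3) every `InB w` has a `MinB β` with `β = w ∨ lt β w`.
   (K) if `MinB β`, `IsMin α`, `lt α β` then `σ β ≠ σ α` (anti) and every non-minimal `w ∈ S` with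
   `σ w = σ α` is `InB`, so `¬ lt w β`; and `lt β w` would give `lt α w`, against anti.
4. If some `MinB β` has `∀ v ∈ S, σ v = σ β → v ≠ β → IsMin v`: take `α` by (m2); `reduce_U`
   (hQQ: the minimal job `a` of the class of `β` and `α` would contradict (nB); hCα by (nA); hinc by (K)).
5. Otherwise take `MinB b`; there is `c ∈ S`, `σ c = σ b`, `c ≠ b`, `c` not minimal, and `IsMin a` with
   `σ a = σ b`.  Three jobs in the class, so `σ a ∉ P` (capP), so `σ a ∈ Q`, and the class is `{a,b,c}`.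
   Every `MinB β'` has (by the failure of 4) three jobs in its class, so its label is in `Q`, so it is
   `σ a` by (nB), so `β' = b ∨ β' = c`.
   Take `IsMin α₁`, `lt α₁ b`: `σ α₁ ≠ σ a`, so `σ α₁ ∈ P` by (nB); by (nA) a non-minimal `β₁` in its class;
   by (m3) `lt b β₁ ∨ lt c β₁`; `lt b β₁` gives `lt α₁ β₁`, against anti; so `lt c β₁`; and `lt β₁ b` would give
   `lt c b`, against anti.  The same for `c`: `IsMin α₂`, `lt α₂ c`, `β₂`, `lt b β₂`, `¬ lt c β₂`, `¬ lt β₂ c`.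
   `σ α₁ ≠ σ α₂`: otherwise the class has at most two jobs, so `α₁ = α₂`, `β₁ = β₂` (minimal / not minimal),
   and `lt α₁ b`, `lt b β₂` give `lt α₁ β₁`, against anti.  `reduce_T`. -/
theorem reduce (lt : V → V → Prop)
    (hirr : ∀ v, ¬ lt v v) (htr : ∀ u v w, lt u v → lt v w → lt u w)
    {S : Finset V} {σ : V → ℕ} {P Q : Finset ℕ} (h : Valid lt S σ P Q) (hS : S.Nonempty) :
    Reducible lt S P Q := by
  classical
  have m1 : ∃ a, IsMin lt S a := by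
    obtain ⟨x, hx⟩ := hS
    obtain ⟨a, haS, -, hamin⟩ := exists_min lt hirr htr S (fun _ => True) hx trivial
    exact ⟨a, haS, fun u hu => hamin u hu trivial⟩
  have m2 : ∀ v ∈ S, ¬ IsMin lt S v → ∃ α, IsMin lt S α ∧ lt α v := by
    intro v hv hnm
    have : ∃ u ∈ S, lt u v := by
      by_contra hcon
      exact hnm ⟨hv, fun u hu hlt => hcon ⟨u, hu, hlt⟩⟩
    obtain ⟨u, hu, huv⟩ := this
    obtain ⟨α, hαS, hαv, hαmin⟩ := exists_min lt hirr htr S (fun w => lt w v) hu huv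
    exact ⟨α, ⟨hαS, fun w hw hwα => hαmin w hw (htr _ _ _ hwα hαv) hwα⟩, hαv⟩
  by_cases hA : ∃ x ∈ S, ∀ v ∈ S, σ v = σ x → IsMin lt S v
  · obtain ⟨x, hx, hall⟩ := hA
    exact reduce_A h x hx hall
  have nA : ∀ x ∈ S, ∃ v ∈ S, σ v = σ x ∧ ¬ IsMin lt S v := by
    intro x hx
    by_contra hcon
    exact hA ⟨x, hx, fun v hv hσ => by_contra fun hnm => hcon ⟨v, hv, hσ, hnm⟩⟩
  by_cases hB : ∃ x₁ x₂, IsMin lt S x₁ ∧ IsMin lt S x₂ ∧ σ x₁ ∈ Q ∧ σ x₂ ∈ Q ∧ σ x₁ ≠ σ x₂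
  · obtain ⟨x₁, x₂, h₁, h₂, hq₁, hq₂, hne⟩ := hB
    exact reduce_B h x₁ x₂ h₁ h₂ hq₁ hq₂ hne
  have nB : ∀ x₁ x₂, IsMin lt S x₁ → IsMin lt S x₂ → σ x₁ ∈ Q → σ x₂ ∈ Q → σ x₁ = σ x₂ := by
    intro x₁ x₂ h₁ h₂ hq₁ hq₂
    by_contra hne
    exact hB ⟨x₁, x₂, h₁, h₂, hq₁, hq₂, hne⟩
  let InB : V → Prop := fun v => v ∈ S ∧ ¬ IsMin lt S v ∧ ∃ a, IsMin lt S a ∧ σ a = σ v
  let MinB : V → Prop := fun β => InB β ∧ ∀ u, InB u → ¬ lt u β
  have m3 : ∀ w, InB w → ∃ β, MinB β ∧ (β = w ∨ lt β w) := by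
    intro w hw
    obtain ⟨β, hβS, ⟨hβB, hβw⟩, hβmin⟩ := exists_min lt hirr htr S
      (fun u => InB u ∧ (u = w ∨ lt u w)) hw.1 ⟨hw, Or.inl rfl⟩
    refine ⟨β, ⟨hβB, fun u hu huβ => hβmin u hu.1 ⟨hu, Or.inr ?_⟩ huβ⟩, hβw⟩
    rcases hβw with e | hβw
    · rw [← e]; exact huβ
    · exact htr _ _ _ huβ hβw
  have K : ∀ β α, MinB β → IsMin lt S α → lt α β → σ β ≠ σ α ∧
      ∀ w ∈ S, σ w = σ α → ¬ IsMin lt S w → ¬ lt β w ∧ ¬ lt w β := by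
    intro β α hβ hα hαβ
    refine ⟨fun heq => h.anti α hα.1 β hβ.1.1 hαβ heq.symm,
      fun w hw hσw hnm => ⟨fun hβw => ?_, fun hwβ => ?_⟩⟩
    · exact h.anti α hα.1 w hw (htr _ _ _ hαβ hβw) hσw.symm
    · exact hβ.2 w ⟨hw, hnm, α, hα, hσw.symm⟩ hwβ
  obtain ⟨a₀, ha₀⟩ := m1
  obtain ⟨v₀, hv₀S, hv₀σ, hv₀nm⟩ := nA a₀ ha₀.1
  have hv₀B : InB v₀ := ⟨hv₀S, hv₀nm, a₀, ha₀, hv₀σ.symm⟩
  by_cases hU : ∃ β, MinB β ∧ ∀ v ∈ S, σ v = σ β → v ≠ β → IsMin lt S v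
  · obtain ⟨β, hβ, hCβ⟩ := hU
    obtain ⟨α, hα, hαβ⟩ := m2 β hβ.1.1 hβ.1.2.1
    obtain ⟨hne, hinc⟩ := K β α hβ hα hαβ
    obtain ⟨a, ha, haσ⟩ := hβ.1.2.2
    refine reduce_U h β α hβ.1.1 hβ.1.2.1 hα hne ?_ hCβ (nA α hα.1) hinc
    rintro ⟨hq1, hq2⟩
    exact hne (haσ.symm.trans (nB a α ha hα (by rw [haσ]; exact hq1) hq2))
  have nU : ∀ β, MinB β → ∃ c ∈ S, σ c = σ β ∧ c ≠ β ∧ ¬ IsMin lt S c := by
    intro β hβ
    by_contra hcon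
    exact hU ⟨β, hβ, fun v hv hσ hne => by_contra fun hnm => hcon ⟨v, hv, hσ, hne, hnm⟩⟩
  obtain ⟨b, hb, -⟩ := m3 v₀ hv₀B
  obtain ⟨c, hcS, hcσ, hcb, hcnm⟩ := nU b hb
  obtain ⟨a, ha, haσ⟩ := hb.1.2.2
  have hab : a ≠ b := fun e => hb.1.2.1 (e ▸ ha)
  have hac : a ≠ c := fun e => hcnm (e ▸ ha)
  have three_Q : ∀ x y z : V, x ∈ S → y ∈ S → z ∈ S → x ≠ y → x ≠ z → y ≠ z →
      σ y = σ x → σ z = σ x → σ x ∈ Q := by
    intro x y z hx hy hz hxy hxz hyz hσy hσz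
    rcases Finset.mem_union.1 (h.lab x hx) with hP | hQ
    · exfalso
      have hsub : ({x, y, z} : Finset V) ⊆ S.filter (fun v => σ v = σ x) := by
        intro w hw
        simp only [Finset.mem_insert, Finset.mem_singleton] at hw
        rcases hw with e | e | e
        · rw [e]; exact Finset.mem_filter.2 ⟨hx, rfl⟩
        · rw [e]; exact Finset.mem_filter.2 ⟨hy, hσy⟩
        · rw [e]; exact Finset.mem_filter.2 ⟨hz, hσz⟩
      have hc3 : ({x, y, z} : Finset V).card = 3 :=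
        Finset.card_eq_three.2 ⟨x, y, z, hxy, hxz, hyz, rfl⟩
      have := (Finset.card_le_card hsub).trans (h.capP _ hP)
      omega
    · exact hQ
  have hσb : σ b = σ a := haσ.symm
  have hσc : σ c = σ a := hcσ.trans haσ.symm
  have hQ : σ a ∈ Q := three_Q a b c ha.1 hb.1.1 hcS hab hac (Ne.symm hcb) hσb hσc
  have hclass : ∀ v ∈ S, σ v = σ a → v = a ∨ v = b ∨ v = c := by
    intro v hv hσv
    by_contra hcon
    have hsub : (insert v ({a, b, c} : Finset V)) ⊆ S.filter (fun w => σ w = σ a) := by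
      intro w hw
      simp only [Finset.mem_insert, Finset.mem_singleton] at hw
      rcases hw with e | e | e | e
      · rw [e]; exact Finset.mem_filter.2 ⟨hv, hσv⟩
      · rw [e]; exact Finset.mem_filter.2 ⟨ha.1, rfl⟩
      · rw [e]; exact Finset.mem_filter.2 ⟨hb.1.1, hσb⟩
      · rw [e]; exact Finset.mem_filter.2 ⟨hcS, hσc⟩
    have hc4 : (insert v ({a, b, c} : Finset V)).card = 4 := by
      rw [Finset.card_insert_of_notMem (by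
        simpa only [Finset.mem_insert, Finset.mem_singleton] using hcon),
        Finset.card_eq_three.2 ⟨a, b, c, hab, hac, Ne.symm hcb, rfl⟩]
    have := (Finset.card_le_card hsub).trans (h.capQ _ hQ)
    omega
  have hMinBbc : ∀ β', MinB β' → β' = b ∨ β' = c := by
    intro β' hβ'
    obtain ⟨c', hc'S, hc'σ, hc'ne, hc'nm⟩ := nU β' hβ'
    obtain ⟨a', ha', ha'σ⟩ := hβ'.1.2.2
    have hQ' : σ a' ∈ Q := three_Q a' β' c' ha'.1 hβ'.1.1 hc'S (fun e => hβ'.1.2.1 (e ▸ ha'))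
      (fun e => hc'nm (e ▸ ha')) (Ne.symm hc'ne) ha'σ.symm (hc'σ.trans ha'σ.symm)
    have h3 : σ a' = σ a := nB a' a ha' ha hQ' hQ
    rcases hclass β' hβ'.1.1 (ha'σ.symm.trans h3) with e | e | e
    · exact absurd (e ▸ ha) hβ'.1.2.1
    · exact Or.inl e
    · exact Or.inr e
  have side : ∀ x y : V, x ∈ S → ¬ IsMin lt S x → σ x = σ a → y ∈ S → σ y = σ a →
      (∀ β', MinB β' → β' = x ∨ β' = y) →
      ∃ α β, IsMin lt S α ∧ lt α x ∧ β ∈ S ∧ ¬ IsMin lt S β ∧ σ β = σ α ∧ σ α ∈ P ∧ lt y β ∧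
        ¬ lt x β ∧ ¬ lt β x := by
    intro x y hx hxnm hσx hy hσy hxy
    obtain ⟨α, hα, hαx⟩ := m2 x hx hxnm
    have hne : σ α ≠ σ a := fun e => h.anti α hα.1 x hx hαx (e.trans hσx.symm)
    have hP : σ α ∈ P := by
      rcases Finset.mem_union.1 (h.lab α hα.1) with hP | hQ'
      · exact hP
      · exact absurd (nB α a hα ha hQ' hQ) hne
    obtain ⟨β, hβS, hσβ, hβnm⟩ := nA α hα.1
    have hβB : InB β := ⟨hβS, hβnm, α, hα, hσβ.symm⟩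
    obtain ⟨β', hβ', hβ'β⟩ := m3 β hβB
    have hnx : ¬ lt x β := fun hl => h.anti α hα.1 β hβS (htr _ _ _ hαx hl) hσβ.symm
    have hyβ : lt y β := by
      rcases hβ'β with e | hl
      · exfalso
        rcases hxy β' hβ' with e' | e'
        · exact hne (by rw [← hσβ, ← e, e', hσx])
        · exact hne (by rw [← hσβ, ← e, e', hσy])
      · rcases hxy β' hβ' with e' | e'
        · exact absurd (e' ▸ hl) hnx
        · exact e' ▸ hl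
    exact ⟨α, β, hα, hαx, hβS, hβnm, hσβ, hP, hyβ, hnx,
      fun hl => h.anti y hy x hx (htr _ _ _ hyβ hl) (hσy.trans hσx.symm)⟩
  obtain ⟨α₁, β₁, hα₁, hα₁b, hβ₁S, hβ₁nm, hσ₁, hP₁, hcβ₁, hn₁, hn₁'⟩ :=
    side b c hb.1.1 hb.1.2.1 hσb hcS hσc hMinBbc
  obtain ⟨α₂, β₂, hα₂, hα₂c, hβ₂S, hβ₂nm, hσ₂, hP₂, hbβ₂, hn₂, hn₂'⟩ :=
    side c b hcS hcnm hσc hb.1.1 hσb (fun β' hβ' => (hMinBbc β' hβ').symm)
  have hne₁ : α₁ ≠ β₁ := fun e => hβ₁nm (e ▸ hα₁)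
  have hne₂ : α₂ ≠ β₂ := fun e => hβ₂nm (e ▸ hα₂)
  have hq : σ α₁ ≠ σ α₂ := by
    intro e
    have notQ : σ α₁ ∉ Q := fun hq' => Finset.disjoint_left.1 h.disj hP₁ hq'
    have e1 : α₂ = α₁ := by
      by_contra hne
      exact notQ (three_Q α₁ β₁ α₂ hα₁.1 hβ₁S hα₂.1 hne₁ (Ne.symm hne)
        (fun e' => hβ₁nm (e' ▸ hα₂)) hσ₁ e.symm)
    have e2 : β₂ = β₁ := by
      by_contra hne
      exact notQ (three_Q α₁ β₁ β₂ hα₁.1 hβ₁S hβ₂S hne₁ (fun e' => hβ₂nm (e' ▸ hα₁))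
        (Ne.symm hne) hσ₁ (hσ₂.trans e.symm))
    exact h.anti α₁ hα₁.1 β₁ hβ₁S (htr _ _ _ hα₁b (e2 ▸ hbβ₂)) hσ₁.symm
  exact reduce_T h a b c α₁ β₁ α₂ β₂ ha hb.1.1 hcS hab hac (Ne.symm hcb) hσb hσc hQ
    hα₁ hβ₁S hne₁ hσ₁ hP₁ hα₂ hβ₂S hne₂ hσ₂ hP₂ hq ⟨hn₁, hn₁'⟩ ⟨hn₂, hn₂'⟩

end Vale.Agent.Lib.P324.TH
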